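import Mathlib
import Vale.Agent.Lib.P248.helper1.ConeAux

/-!
# P248 (helper10, second copy of pool job CQD): interior points of a cone

An interior point of the cone over D with apex (h, c) is of the form
(τ h, (1 - τ) ζ + τ c) with ζ in the interior of D and 0 < τ < 1.
-/

namespace Vale.Agent.Lib.P248.H10

open MeasureTheory Set
open scoped ENNReal
open Vale.Agent.Lib.P227 Vale.Agent.Lib.P248.H1

theorem interior_coneE {n : ℕ} (D : Set (EuclideanSpace ℝ (Fin n))) (c : EuclideanSpace ℝ (Fin n)) (h : ℝ) (hh : 0 < h) (z : EuclideanSpace ℝ (Fin (n + 1))) (hz : z ∈ interior (coneE D c h)) : ∃ ζ ∈ interior D, ∃ τ : ℝ, 0 < τ ∧ τ < 1 ∧ z = ecomb (τ * h) ((1 - τ) • ζ + τ • c) := by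
  have hzc : z ∈ coneE D c h := interior_subset hz
  obtain ⟨d, hd, r, hr0, hr1, hzeq⟩ := hzc
  -- step 1: r lies strictly between 0 and 1
  have hopen : IsOpen ((fun t : ℝ => ecomb t (etail z)) ⁻¹' interior (coneE D c h)) :=
    isOpen_interior.preimage
      (continuous_ecomb_prod.comp (continuous_id.prodMk continuous_const))
  have hsub : (fun t : ℝ => ecomb t (etail z)) ⁻¹' interior (coneE D c h) ⊆ Icc 0 h := by
    intro t ht
    have ht' : ecomb t (etail z) ∈ coneE D c h := interior_subset ht
    obtain ⟨d', _, r', hr0', hr1', heq⟩ := ht'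
    have h0 : t = r' * h := by
      have h00 := congrArg (fun x : EuclideanSpace ℝ (Fin (n + 1)) => x 0) heq
      simpa only [ecomb_zero] using h00
    rw [h0]
    exact ⟨mul_nonneg hr0' hh.le, by nlinarith⟩
  have hz0 : z 0 = r * h := by rw [hzeq, ecomb_zero]
  have hmem : r * h ∈ (fun t : ℝ => ecomb t (etail z)) ⁻¹' interior (coneE D c h) := by
    show ecomb (r * h) (etail z) ∈ interior (coneE D c h)
    rw [← hz0, ecomb_eta]
    exact hz
  have hint : r * h ∈ interior (Icc (0 : ℝ) h) := interior_maximal hsub hopen hmem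
  rw [interior_Icc] at hint
  have hr0' : 0 < r := by
    rcases hr0.lt_or_eq with hlt | heq0
    · exact hlt
    · exfalso
      have h1 := hint.1
      rw [← heq0, zero_mul] at h1
      exact lt_irrefl _ h1
  have hr1' : r < 1 := by
    have h2 := hint.2
    nlinarith
  -- step 2: d is an interior point of D
  have hopen2 : IsOpen ((fun d' : EuclideanSpace ℝ (Fin n) =>
      ecomb (r * h) ((1 - r) • d' + r • c)) ⁻¹' interior (coneE D c h)) :=
    isOpen_interior.preimage ((continuous_ecomb (r * h)).comp (by fun_prop))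
  have hsub2 : (fun d' : EuclideanSpace ℝ (Fin n) =>
      ecomb (r * h) ((1 - r) • d' + r • c)) ⁻¹' interior (coneE D c h) ⊆ D := by
    intro d' hd'
    have hd'' : ecomb (r * h) ((1 - r) • d' + r • c) ∈ coneE D c h := interior_subset hd'
    obtain ⟨d2, hd2, r2, _, _, heq⟩ := hd''
    have h0 : r * h = r2 * h := by
      have h00 := congrArg (fun x : EuclideanSpace ℝ (Fin (n + 1)) => x 0) heq
      simpa only [ecomb_zero] using h00
    have hr : r = r2 := mul_right_cancel₀ hh.ne' h0
    subst hr
    have h1 := congrArg etail heq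
    rw [etail_ecomb, etail_ecomb] at h1
    have h2 : (1 - r) • d' = (1 - r) • d2 := add_right_cancel h1
    have hne : (1 - r) ≠ 0 := by linarith
    have h3 : d' = d2 := smul_right_injective _ hne h2
    rw [h3]
    exact hd2
  have hmem2 : d ∈ (fun d' : EuclideanSpace ℝ (Fin n) =>
      ecomb (r * h) ((1 - r) • d' + r • c)) ⁻¹' interior (coneE D c h) := by
    show ecomb (r * h) ((1 - r) • d + r • c) ∈ interior (coneE D c h)
    rw [← hzeq]
    exact hz
  exact ⟨d, interior_maximal hsub2 hopen2 hmem2, r, hr0', hr1', hzeq⟩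

end Vale.Agent.Lib.P248.H10
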