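import Mathlib
import Vale.Agent.Lib.P248.helper37.Q2Defs

/-!
# P248 (helper10, copy of pool job Q2AB-J6): a cone over the polar of a facet

For an admissible pair (A, z) in dimension n + 1 and a coordinate i, the cone with apex
-e_i / z_i over the k-negative part of the polar of the facet (sec A i) lies in the part of
the polar of A about z with k + 1 negative coordinates and negative coordinate i; its volume
is the volume of the base divided by (n + 1) z_i.
-/

open MeasureTheory Set
open scoped Pointwise

namespace Vale.Agent.Lib.P248.H10Q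

open Vale.Agent.Lib.P248.H37 Vale.Agent.Lib.P248.H37Q

theorem negCount_succAbove {n : ℕ} (i : Fin (n + 1)) (y : Fin (n + 1) → ℝ) :
    negCount y = (if y i < 0 then 1 else 0) + negCount (fun j => y (i.succAbove j)) := by
  unfold negCount
  rw [Finset.card_filter, Finset.card_filter, Fin.sum_univ_succAbove _ i]

theorem measurable_negCount {m : ℕ} : Measurable (negCount (m := m)) := by
  have h : (negCount (m := m)) = fun y : Fin m → ℝ => ∑ j : Fin m, if y j < 0 then 1 else 0 := by
    funext y
    unfold negCount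
    rw [Finset.card_filter]
  rw [h]
  refine Finset.measurable_sum _ (fun j _ => ?_)
  exact Measurable.ite (measurableSet_lt (measurable_pi_apply j) measurable_const)
    measurable_const measurable_const

theorem isClosed_polZ' {m : ℕ} (A : Set (Fin m → ℝ)) (z : Fin m → ℝ) : IsClosed (polZ A z) := by
  have h : polZ A z = ⋂ x ∈ A, {y : Fin m → ℝ | ∑ i, (x i - z i) * y i ≤ 1} := by
    ext y
    simp [polZ]
  rw [h]
  refine isClosed_biInter (fun x _ => ?_)
  exact isClosed_le (by fun_prop) continuous_const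

theorem measurableSet_polK' {m : ℕ} (A : Set (Fin m → ℝ)) (z : Fin m → ℝ) (k : ℕ) :
    MeasurableSet (polK A z k) := by
  have h : polK A z k = polZ A z ∩ negCount ⁻¹' {k} := by
    ext y
    simp [polK]
  rw [h]
  exact (isClosed_polZ' A z).measurableSet.inter (measurable_negCount (measurableSet_singleton k))

theorem lintegral_apex_profile (n : ℕ) (c : ℝ) (hc : 0 < c) :
    ∫⁻ t in Ioo (-1 / c) (0 : ℝ), ENNReal.ofReal ((1 + c * t) ^ n)
      = ENNReal.ofReal (1 / (((n : ℝ) + 1) * c)) := by
  have hle : -1 / c ≤ 0 := by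
    have : 0 < 1 / c := one_div_pos.mpr hc
    have e : -1 / c = -(1 / c) := by ring
    rw [e]
    linarith
  have hcont : Continuous (fun t : ℝ => (1 + c * t) ^ n) := by fun_prop
  have hint : IntegrableOn (fun t : ℝ => (1 + c * t) ^ n) (Ioo (-1 / c) (0 : ℝ)) :=
    (hcont.integrableOn_Icc).mono_set Ioo_subset_Icc_self
  have hnn : 0 ≤ᵐ[volume.restrict (Ioo (-1 / c) (0 : ℝ))] (fun t : ℝ => (1 + c * t) ^ n) := by
    refine (ae_restrict_iff' measurableSet_Ioo).mpr (Filter.Eventually.of_forall fun t ht => ?_)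
    have h1 : -1 < c * t := by
      have h2 := mul_lt_mul_of_pos_left ht.1 hc
      have e : c * (-1 / c) = -1 := by field_simp
      rw [e] at h2
      exact h2
    exact pow_nonneg (by linarith) n
  rw [← ofReal_integral_eq_lintegral_ofReal hint hnn]
  congr 1
  rw [← integral_Ioc_eq_integral_Ioo, ← intervalIntegral.integral_of_le hle]
  have hn : (n : ℝ) + 1 ≠ 0 := by positivity
  have hderiv : ∀ x ∈ uIcc (-1 / c) (0 : ℝ),
      HasDerivAt (fun t : ℝ => (1 + c * t) ^ (n + 1) / (((n : ℝ) + 1) * c))
        ((1 + c * x) ^ n) x := by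
    intro x _
    have h1 : HasDerivAt (fun t : ℝ => 1 + c * t) c x := by
      have h0 := ((hasDerivAt_id x).const_mul c).const_add 1
      simpa using h0
    have h2 : HasDerivAt (fun t : ℝ => (1 + c * t) ^ (n + 1) / (((n : ℝ) + 1) * c))
        ((((n + 1 : ℕ) : ℝ) * (1 + c * x) ^ (n + 1 - 1) * c) / (((n : ℝ) + 1) * c)) x :=
      (h1.pow (n + 1)).div_const _
    refine h2.congr_deriv ?_
    rw [Nat.add_sub_cancel]
    push_cast
    field_simp
  rw [intervalIntegral.integral_eq_sub_of_hasDerivAt hderiv (hcont.intervalIntegrable _ _)]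
  have h0 : (1 + c * (-1 / c)) = 0 := by field_simp; ring
  rw [h0]
  simp

theorem polK_piece {n : ℕ} {A : Set (Fin (n + 1) → ℝ)} {z : Fin (n + 1) → ℝ} (h : Adm A z)
    (i : Fin (n + 1)) (k : ℕ) :
    ENNReal.ofReal (1 / (((n : ℝ) + 1) * z i)) *
        volume (polK (sec A i) (fun j => z (i.succAbove j)) k) ≤
      volume (polK A z (k + 1) ∩ {y | y i < 0}) := by
  have hzi : 0 < z i := h.pos i
  set S : Set (Fin n → ℝ) := polK (sec A i) (fun j => z (i.succAbove j)) k with hSdef
  have hSm : MeasurableSet S := measurableSet_polK' _ _ k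
  set G : Set (ℝ × (Fin n → ℝ)) :=
    {p | p.1 ∈ Ioo (-1 / z i) (0 : ℝ) ∧ (1 + z i * p.1)⁻¹ • p.2 ∈ S} with hGdef
  have hGm : MeasurableSet G := by
    have h1 : MeasurableSet {p : ℝ × (Fin n → ℝ) | p.1 ∈ Ioo (-1 / z i) (0 : ℝ)} :=
      measurable_fst measurableSet_Ioo
    have h2 : Measurable (fun p : ℝ × (Fin n → ℝ) => (1 + z i * p.1)⁻¹ • p.2) := by
      have ha : Measurable (fun p : ℝ × (Fin n → ℝ) => (1 + z i * p.1)⁻¹) :=
        ((measurable_const.add (measurable_const.mul measurable_fst))).inv
      exact ha.smul measurable_snd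
    exact h1.inter (h2 hSm)
  -- the sections of `G`
  have hsec : ∀ t ∈ Ioo (-1 / z i) (0 : ℝ),
      volume (Prod.mk t ⁻¹' G) = ENNReal.ofReal ((1 + z i * t) ^ n) * volume S := by
    intro t ht
    have hlam : 0 < 1 + z i * t := by
      have h2 := mul_lt_mul_of_pos_left ht.1 hzi
      have e : z i * (-1 / z i) = -1 := by field_simp
      rw [e] at h2
      linarith
    have e1 : Prod.mk t ⁻¹' G = (1 + z i * t) • S := by
      rw [← Set.preimage_smul_inv₀ hlam.ne']
      ext v
      simp only [hGdef, mem_preimage, mem_ofPred_eq]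
      constructor
      · rintro ⟨_, hv⟩
        exact hv
      · intro hv
        exact ⟨ht, hv⟩
    rw [e1, Measure.addHaar_smul, Module.finrank_fin_fun, abs_of_nonneg (pow_nonneg hlam.le n)]
  -- the cone lies in the polar
  have hsub : (MeasurableEquiv.piFinSuccAbove (fun _ => ℝ) i) ⁻¹' G
      ⊆ polK A z (k + 1) ∩ {y | y i < 0} := by
    intro y hy
    have hy1 : y i ∈ Ioo (-1 / z i) (0 : ℝ) := hy.1
    have hy2 : (1 + z i * y i)⁻¹ • (fun j => y (i.succAbove j)) ∈ S := hy.2
    have hlam : 0 < 1 + z i * y i := by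
      have h2 := mul_lt_mul_of_pos_left hy1.1 hzi
      have e : z i * (-1 / z i) = -1 := by field_simp
      rw [e] at h2
      linarith
    set w : Fin n → ℝ := (1 + z i * y i)⁻¹ • (fun j => y (i.succAbove j)) with hwdef
    have hyw : ∀ j, y (i.succAbove j) = (1 + z i * y i) * w j := by
      intro j
      simp only [hwdef, Pi.smul_apply, smul_eq_mul]
      field_simp
    have hwS : w ∈ polZ (sec A i) (fun j => z (i.succAbove j)) := hy2.1
    have hwk : negCount w = k := hy2.2
    refine ⟨⟨?_, ?_⟩, hy1.2⟩
    · intro x hx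
      have hx' : (fun j => x (i.succAbove j)) ∈ sec A i := by
        show (Fin.insertNth i (0 : ℝ) (fun j => x (i.succAbove j)) : Fin (n + 1) → ℝ) ∈ A
        refine h.good.down x hx _ ?_
        rw [i.forall_iff_succAbove]
        refine ⟨?_, fun j => ?_⟩
        · rw [ins_same]
          exact ⟨le_refl _, h.good.nonneg x hx i⟩
        · rw [ins_succ]
          exact ⟨h.good.nonneg x hx _, le_refl _⟩
      have hs := hwS _ hx'
      rw [Fin.sum_univ_succAbove _ i]
      have e2 : ∑ j, (x (i.succAbove j) - z (i.succAbove j)) * y (i.succAbove j)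
          = (1 + z i * y i) * ∑ j, (x (i.succAbove j) - z (i.succAbove j)) * w j := by
        rw [Finset.mul_sum]
        refine Finset.sum_congr rfl (fun j _ => ?_)
        rw [hyw j]
        ring
      rw [e2]
      have hxi : 0 ≤ x i := h.good.nonneg x hx i
      have hyi : y i < 0 := hy1.2
      have h3 : (1 + z i * y i) * ∑ j, (x (i.succAbove j) - z (i.succAbove j)) * w j
          ≤ (1 + z i * y i) * 1 := mul_le_mul_of_nonneg_left hs hlam.le
      have h4 : x i * y i ≤ 0 := mul_nonpos_of_nonneg_of_nonpos hxi hyi.le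
      nlinarith
    · rw [negCount_succAbove i y, if_pos hy1.2]
      have e3 : negCount (fun j => y (i.succAbove j)) = negCount w := by
        unfold negCount
        congr 1
        ext j
        simp only [Finset.mem_filter, Finset.mem_univ, true_and]
        rw [hyw j]
        constructor
        · intro hneg
          by_contra hcon
          have : 0 ≤ (1 + z i * y i) * w j := mul_nonneg hlam.le (not_lt.mp hcon)
          linarith
        · intro hneg
          exact mul_neg_of_pos_of_neg hlam hneg
      rw [e3, hwk]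
      ring
  have hmf : Measurable (fun t : ℝ => ENNReal.ofReal ((1 + z i * t) ^ n)) := by fun_prop
  calc ENNReal.ofReal (1 / (((n : ℝ) + 1) * z i)) * volume S
      = (∫⁻ t in Ioo (-1 / z i) (0 : ℝ), ENNReal.ofReal ((1 + z i * t) ^ n)) * volume S := by
        rw [lintegral_apex_profile n (z i) hzi]
    _ = ∫⁻ t in Ioo (-1 / z i) (0 : ℝ), ENNReal.ofReal ((1 + z i * t) ^ n) * volume S := by
        rw [lintegral_mul_const _ hmf]
    _ = ∫⁻ t in Ioo (-1 / z i) (0 : ℝ), volume (Prod.mk t ⁻¹' G) :=
        setLIntegral_congr_fun measurableSet_Ioo (fun t ht => (hsec t ht).symm)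
    _ ≤ ∫⁻ t, volume (Prod.mk t ⁻¹' G) := setLIntegral_le_lintegral _ _
    _ = (volume.prod volume) G := (Measure.prod_apply hGm).symm
    _ = volume G := by rw [Measure.volume_eq_prod]
    _ = volume ((MeasurableEquiv.piFinSuccAbove (fun _ => ℝ) i) ⁻¹' G) :=
        ((volume_preserving_piFinSuccAbove (fun _ => ℝ) i).measure_preimage_equiv G).symm
    _ ≤ volume (polK A z (k + 1) ∩ {y | y i < 0}) := measure_mono hsub

end Vale.Agent.Lib.P248.H10Q
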